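import Mathlib

namespace Vale.Agent.P371

open Set Metric MeasureTheory Filter Topology
open scoped RealInnerProductSpace

/-- Nearest point projection onto a complete convex set. -/
lemma exists_proj {F : Type} [NormedAddCommGroup F] [InnerProductSpace ℝ F] {K : Set F}
    (hc : Convex ℝ K) (hK : IsComplete K) (hne : K.Nonempty) :
    ∃ p : F → F, (∀ x, p x ∈ K) ∧ (∀ x, ∀ z ∈ K, ⟪x - p x, z - p x⟫ ≤ 0) ∧
      (∀ x y, ‖p x - p y‖ ≤ ‖x - y‖) ∧ ∀ x ∈ K, p x = x := by
  choose p hp hp' using exists_norm_eq_iInf_of_complete_convex hne hK hc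
  have h2 : ∀ x, ∀ z ∈ K, ⟪x - p x, z - p x⟫ ≤ 0 := fun x =>
    (norm_eq_iInf_iff_real_inner_le_zero hc (hp x)).1 (hp' x)
  refine ⟨p, hp, h2, fun x y => ?_, fun x hx => ?_⟩
  · have a := h2 x (p y) (hp y)
    have b := h2 y (p x) (hp x)
    have e : ⟪x - y, p x - p y⟫ = ‖p x - p y‖ ^ 2 - ⟪x - p x, p y - p x⟫
        - ⟪y - p y, p x - p y⟫ := by
      rw [← real_inner_self_eq_norm_sq]
      have : p y - p x = -(p x - p y) := by abel
      rw [this, inner_neg_right, sub_neg_eq_add, ← inner_add_left, ← inner_sub_left]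
      congr 1
      abel
    have c := real_inner_le_norm (x - y) (p x - p y)
    by_contra hlt
    push Not at hlt
    have h0 : 0 < ‖p x - p y‖ := lt_of_le_of_lt (norm_nonneg _) hlt
    nlinarith
  · have a := h2 x x hx
    rw [real_inner_self_eq_norm_sq] at a
    have : ‖x - p x‖ = 0 := by nlinarith [norm_nonneg (x - p x)]
    exact (sub_eq_zero.1 (norm_eq_zero.1 this)).symm

/-- `t ↦ det (1 + t A)` is a polynomial of degree at most the dimension. -/
lemma det_poly {F : Type} [NormedAddCommGroup F] [NormedSpace ℝ F] [FiniteDimensional ℝ F]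
    (A : F →L[ℝ] F) : ∃ q : Polynomial ℝ, q.natDegree ≤ Module.finrank ℝ F ∧
      ∀ t : ℝ, q.eval t = (ContinuousLinearMap.id ℝ F + t • A).det := by
  classical
  let b := Module.finBasis ℝ F
  let M := LinearMap.toMatrix b b (A : F →ₗ[ℝ] F)
  refine ⟨Matrix.det ((Polynomial.X : Polynomial ℝ) • M.map Polynomial.C +
    (1 : Matrix _ _ ℝ).map Polynomial.C), ?_, fun t => ?_⟩
  · simpa using Polynomial.natDegree_det_X_add_C_le M 1
  · rw [← Polynomial.coe_evalRingHom, RingHom.map_det, ContinuousLinearMap.det,
      ← LinearMap.det_toMatrix b]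
    congr 1
    ext i j
    simp [M, Matrix.one_apply, LinearMap.toMatrix_apply, add_comm, Finsupp.single_apply,
      apply_ite, eq_comm]
    ring

/-- Interpolation: the value at `1` is an affine combination of values at small times. -/
lemma exists_weights (n : ℕ) {δ : ℝ} (hδ : 0 < δ) :
    ∃ (v w : Fin (n + 1) → ℝ), (∀ i, 0 < v i ∧ v i < δ) ∧ ∑ i, w i = 1 ∧
      ∀ q : Polynomial ℝ, q.natDegree ≤ n → q.eval 1 = ∑ i, q.eval (v i) * w i := by
  classical
  let v : Fin (n + 1) → ℝ := fun i => δ / ((i : ℕ) + 2)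
  have hv : InjOn v (Finset.univ : Finset (Fin (n + 1))) := by
    intro i _ j _ h
    simp only [v] at h
    have h1 : (0 : ℝ) < (i : ℕ) + 2 := by positivity
    have h2 : (0 : ℝ) < (j : ℕ) + 2 := by positivity
    rw [div_eq_div_iff h1.ne' h2.ne'] at h
    have h3 := mul_left_cancel₀ hδ.ne' h
    have h4 : ((i : ℕ) : ℝ) = (j : ℕ) := by linarith
    exact Fin.ext (by exact_mod_cast h4)
  refine ⟨v, fun i => (Lagrange.basis Finset.univ v i).eval 1, fun i => ⟨by positivity, ?_⟩, ?_,
    fun q hq => ?_⟩
  · have h1 : (0 : ℝ) ≤ (i : ℕ) := by positivity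
    simp only [v]
    rw [div_lt_iff₀ (by positivity)]
    nlinarith
  · rw [← Polynomial.eval_finsetSum, Lagrange.sum_basis hv Finset.univ_nonempty]
    simp
  · have hd : q.degree < (Finset.univ : Finset (Fin (n + 1))).card := by
      refine lt_of_le_of_lt (Polynomial.degree_le_of_natDegree_le hq) ?_
      simp only [Finset.card_univ, Fintype.card_fin]
      exact_mod_cast Nat.lt_succ_self n
    conv_lhs => rw [Lagrange.eq_interpolate hv hd]
    rw [Lagrange.interpolate_apply, Polynomial.eval_finsetSum]
    simp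

/-- There is no `C¹` retraction of the ball to the sphere. -/
lemma no_retr {F : Type} [NormedAddCommGroup F] [InnerProductSpace ℝ F] [FiniteDimensional ℝ F]
    {ρ : ℝ} (hρ : 0 < ρ) {r : F → F} (hr : ContDiff ℝ 1 r) (hn : ∀ x, ‖r x‖ = ρ)
    (hid : ∀ x, ‖x‖ = ρ → r x = x) : False := by
  borelize F
  let μ : Measure F := Measure.addHaar
  set B : Set F := closedBall 0 ρ with hB
  have hBc : IsCompact B := isCompact_closedBall 0 ρ
  have hBv : Convex ℝ B := convex_closedBall 0 ρ
  have hBn : B.Nonempty := nonempty_closedBall.2 hρ.le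
  let h : F → F := fun x => r x - x
  have hh : ContDiff ℝ 1 h := hr.sub contDiff_id
  obtain ⟨L, hL⟩ := hh.contDiffOn.exists_lipschitzOnWith one_ne_zero hBv hBc
  let A : F → F →L[ℝ] F := fun x => fderiv ℝ h x
  have hA : Continuous A := hh.continuous_fderiv one_ne_zero
  have hAd : ∀ x, HasFDerivAt h (A x) x := fun x =>
    (hh.differentiable one_ne_zero x).hasFDerivAt
  let D : ℝ → F → ℝ := fun t x => (ContinuousLinearMap.id ℝ F + t • A x).det
  have hDc : Continuous fun z : ℝ × F => D z.1 z.2 := by
    refine ContinuousLinearMap.continuous_det.comp ?_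
    fun_prop
  have hD0 : ∀ x, D 0 x = 1 := fun x => by simp [D, ContinuousLinearMap.det]
  have hpos : ∀ᶠ t in 𝓝 (0 : ℝ), ∀ x ∈ B, 0 < D t x := by
    refine hBc.eventually_forall_of_forall_eventually (P := fun t x => 0 < D t x) fun y _ => ?_
    exact (hDc.tendsto (0, y)).eventually (lt_mem_nhds (by simp [hD0]))
  obtain ⟨δ1, hδ1, hδ1'⟩ := Metric.eventually_nhds_iff.1 hpos
  obtain ⟨p, hp1, hp2, hp3, -⟩ := exists_proj hBv hBc.isComplete hBn
  have hL' : ∀ x ∈ B, ∀ y ∈ B, ‖h x - h y‖ ≤ L * ‖x - y‖ := fun x hx y hy => by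
    simpa [dist_eq_norm] using hL.dist_le_mul x hx y hy
  -- small times
  have key : ∀ t : ℝ, 0 < t → t < min δ1 (1 / ((L : ℝ) + 1)) →
      ∫ x in B, D t x ∂μ = μ.real B := by
    intro t ht0 ht
    have ht1 : t < δ1 := ht.trans_le (min_le_left _ _)
    have ht2 : t < 1 / ((L : ℝ) + 1) := ht.trans_le (min_le_right _ _)
    have hL0 : (0 : ℝ) ≤ L := L.2
    rw [lt_div_iff₀ (by positivity)] at ht2
    have htL : t * L < 1 := by nlinarith
    have ht3 : t ≤ 1 := by nlinarith
    let g : F → F := fun x => x + t • h x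
    have hinj : InjOn g B := by
      intro x hx y hy hxy
      have e : x - y = -(t • (h x - h y)) := by
        simp only [g] at hxy
        rw [smul_sub, neg_sub, sub_eq_sub_iff_add_eq_add, hxy, add_comm]
      have e2 : ‖x - y‖ = t * ‖h x - h y‖ := by
        conv_lhs => rw [e]
        rw [norm_neg, norm_smul, Real.norm_of_nonneg ht0.le]
      have e3 := hL' x hx y hy
      have e4 : ‖x - y‖ ≤ 0 := by
        by_contra hh
        push Not at hh
        nlinarith
      exact sub_eq_zero.1 (norm_le_zero_iff.1 e4)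
    have him : g '' B = B := by
      apply Subset.antisymm
      · rintro _ ⟨x, hx, rfl⟩
        have h1 : r x ∈ B := by simp [hB, hn]
        exact hBv.add_smul_sub_mem hx h1 ⟨ht0.le, ht3⟩
      · intro y hy
        let φ : F → F := fun x => y - t • h (p x)
        have hφ : ContractingWith ⟨t * L, by positivity⟩ φ := by
          refine ⟨by exact_mod_cast htL, LipschitzWith.of_dist_le_mul fun a b => ?_⟩
          simp only [φ, dist_eq_norm]
          have e : y - t • h (p a) - (y - t • h (p b)) = -(t • (h (p a) - h (p b))) := by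
            rw [smul_sub t (h (p a))]; abel
          rw [e, norm_neg, norm_smul, Real.norm_of_nonneg ht0.le]
          have e1 := hL' _ (hp1 a) _ (hp1 b)
          have e2 := hp3 a b
          change _ ≤ t * L * ‖a - b‖
          rw [mul_assoc]
          gcongr
          exact e1.trans (by gcongr)
        have hx := hφ.fixedPoint_isFixedPt
        set x := hφ.fixedPoint φ
        have hx' : y - t • h (p x) = x := hx
        have hpx : p x = x := by
          have hz : ‖x - p x‖ ^ 2 ≤ 0 := by
            rw [← real_inner_self_eq_norm_sq]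
            rcases (mem_closedBall_zero_iff.1 (hp1 x)).lt_or_eq with hlt | heq
            · have hev : ∀ᶠ s in 𝓝 (0 : ℝ), ‖p x + s • (x - p x)‖ < ρ := by
                have hc : Continuous fun s : ℝ => ‖p x + s • (x - p x)‖ := by fun_prop
                exact (hc.tendsto 0).eventually (gt_mem_nhds (by simpa using hlt))
              obtain ⟨s, hs1, hs2⟩ := (hev.filter_mono nhdsWithin_le_nhds |>.and
                (self_mem_nhdsWithin (s := Ioi (0 : ℝ)))).exists
              have := hp2 x _ (mem_closedBall_zero_iff.2 hs1.le)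
              rw [add_sub_cancel_left, inner_smul_right] at this
              exact nonpos_of_mul_nonpos_right this hs2 |> fun h => h
            · have h0 : h (p x) = 0 := by simp [h, hid _ heq]
              rw [h0, smul_zero, sub_zero] at hx'
              have := hp2 x x (hx' ▸ hy)
              exact this
          have : ‖x - p x‖ = 0 := by nlinarith [norm_nonneg (x - p x)]
          exact (sub_eq_zero.1 (norm_eq_zero.1 this)).symm
        refine ⟨x, hpx ▸ hp1 x, ?_⟩
        rw [hpx] at hx'
        simp only [g]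
        exact (eq_sub_iff_add_eq.1 hx'.symm)
    have hder : ∀ x ∈ B, HasFDerivWithinAt g (ContinuousLinearMap.id ℝ F + t • A x) B x :=
      fun x _ => ((hasFDerivAt_id x).add ((hAd x).const_smul t)).hasFDerivWithinAt
    have hint := integral_image_eq_integral_abs_det_fderiv_smul μ hBc.measurableSet hder hinj
      (fun _ => (1 : ℝ))
    rw [him] at hint
    simp only [integral_const, MeasurableSet.univ, measureReal_restrict_apply, univ_inter,
      smul_eq_mul, mul_one] at hint
    rw [hint]
    refine setIntegral_congr_fun hBc.measurableSet fun x hx => ?_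
    have := hδ1' (y := t) (by simpa [abs_of_pos ht0] using ht1) x hx
    exact (abs_of_pos this).symm
  obtain ⟨v, w, hv, hw, hvw⟩ := exists_weights (Module.finrank ℝ F)
    (δ := min δ1 (1 / ((L : ℝ) + 1))) (lt_min hδ1 (by positivity))
  have hD1 : ∀ x, D 1 x = ∑ i, D (v i) x * w i := by
    intro x
    obtain ⟨q, hq, hq'⟩ := det_poly (A x)
    have := hvw q hq
    simpa only [hq'] using this
  have hI : ∫ x in B, D 1 x ∂μ = μ.real B := by
    simp_rw [hD1]
    rw [integral_finsetSum]
    · simp_rw [integral_mul_const]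
      rw [Finset.sum_congr rfl fun i _ => by rw [key (v i) (hv i).1 (hv i).2], ← Finset.mul_sum,
        hw, mul_one]
    · intro i _
      refine (ContinuousOn.integrableOn_compact hBc (Continuous.continuousOn ?_))
      exact (hDc.comp (Continuous.prodMk_right (v i))).mul continuous_const
  have hz : ∀ x, D 1 x = 0 := by
    intro x
    have hd : HasFDerivAt r (ContinuousLinearMap.id ℝ F + (1 : ℝ) • A x) x := by
      have := (hasFDerivAt_id x).add ((hAd x).const_smul (1 : ℝ))
      refine this.congr_of_eventuallyEq (Eventually.of_forall fun y => ?_)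
      simp [h]
    set T := ContinuousLinearMap.id ℝ F + (1 : ℝ) • A x
    have h1 := hd.norm_sq
    have h2 : HasFDerivAt (fun y => ‖r y‖ ^ 2) (0 : F →L[ℝ] ℝ) x := by
      simp only [hn]
      exact hasFDerivAt_const _ _
    have h3 := h1.unique h2
    change LinearMap.det (T : F →ₗ[ℝ] F) = 0
    rw [LinearMap.det_eq_zero_iff_ker_ne_bot]
    intro hk
    rw [LinearMap.ker_eq_bot_iff_range_eq_top, LinearMap.range_eq_top] at hk
    obtain ⟨u, hu⟩ := hk (r x)
    have h4 := congrArg (fun S : F →L[ℝ] ℝ => S u) h3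
    have hu' : T u = r x := hu
    simp [hu', hn] at h4
    exact hρ.ne' h4
  simp only [hz, integral_zero] at hI
  have hpos' : 0 < μ.real B :=
    ENNReal.toReal_pos (measure_closedBall_pos μ 0 hρ).ne' hBc.measure_lt_top.ne
  linarith

/-- Brouwer's theorem in a Euclidean space. -/
lemma brouwer_inner {F : Type} [NormedAddCommGroup F] [InnerProductSpace ℝ F]
    [FiniteDimensional ℝ F] {K : Set F} (hc : Convex ℝ K) (hK : IsCompact K) (hne : K.Nonempty)
    {f : F → F} (hf : ContinuousOn f K) (hmap : Set.MapsTo f K K) : ∃ x ∈ K, f x = x := by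
  by_contra hno
  push Not at hno
  obtain ⟨p, hp1, -, hp3, hp4⟩ := exists_proj hc hK.isComplete hne
  have hpc : Continuous p := (LipschitzWith.of_dist_le_mul (K := 1) fun a b => by
    simpa [dist_eq_norm] using hp3 a b).continuous
  obtain ⟨R, hR0, hR⟩ := hK.isBounded.exists_pos_norm_le
  let G : F → F := fun x => f (p x)
  have hG : Continuous G := hf.comp_continuous hpc hp1
  have hGK : ∀ x, G x ∈ K := fun x => hmap (hp1 x)
  have hGne : ∀ x, G x ≠ x := fun x hx => by
    have h1 : x ∈ K := hx ▸ hGK x
    exact hno x h1 (by simpa [G, hp4 x h1] using hx)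
  let l : F → ℝ := fun x => max 0 (min 1 (2 - ‖x‖ / R))
  let k : F → F := fun x => l x • G x
  have hk : Continuous k := by
    simp only [k, l]
    fun_prop
  have hv : ∀ x, 0 < ‖x - k x‖ := by
    intro x
    rw [norm_pos_iff, sub_ne_zero]
    intro hx
    rcases le_or_gt ‖x‖ R with h | h
    · have h1 : l x = 1 := by
        have : ‖x‖ / R ≤ 1 := (div_le_one hR0).2 h
        simp only [l]
        rw [min_eq_left (by linarith), max_eq_right zero_le_one]
      apply hGne x
      simpa [k, h1] using hx.symm
    · have h1 : 0 ≤ l x := le_max_left _ _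
      have h2 : l x ≤ 1 := max_le zero_le_one (min_le_left _ _)
      have h3 : ‖k x‖ = l x * ‖G x‖ := by
        simp only [k]
        rw [norm_smul, Real.norm_of_nonneg h1]
      have h4 := hR _ (hGK x)
      rw [← hx] at h3
      nlinarith [norm_nonneg (G x)]
  obtain ⟨k', hk1, hk2, hk3⟩ := hk.exists_contDiff_approx 1 (ε := fun x => ‖x - k x‖)
    (by fun_prop) hv
  have hv' : ∀ x, x - k' x ≠ 0 := by
    intro x hx
    have h1 := hk2 x
    rw [← sub_eq_zero.1 hx, dist_eq_norm] at h1
    exact lt_irrefl _ h1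
  have hc1 : ContDiff ℝ 1 fun x => x - k' x := contDiff_id.sub hk1
  refine no_retr (ρ := 2 * R) (r := fun x => (2 * R / ‖x - k' x‖) • (x - k' x))
    (by positivity) ?_ (fun x => ?_) (fun x hx => ?_)
  · exact (contDiff_const.div (hc1.norm ℝ hv') fun x => norm_ne_zero_iff.2 (hv' x)).smul hc1
  · have := norm_pos_iff.2 (hv' x)
    rw [norm_smul, Real.norm_of_nonneg (by positivity)]
    field_simp
  · have h1 : l x = 0 := by
      simp only [l]
      rw [hx, mul_div_assoc, div_self hR0.ne']
      simp
    have h2 : k' x = 0 := by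
      by_contra h
      exact hk3 h (by simp [k, h1])
    simp only [h2, sub_zero, hx]
    rw [div_self (by positivity), one_smul]

/-- Brouwer's fixed point theorem. -/
theorem brouwer {E : Type} [NormedAddCommGroup E] [NormedSpace ℝ E] [FiniteDimensional ℝ E]
    {K : Set E} (hc : Convex ℝ K) (hK : IsCompact K) (hne : K.Nonempty) {f : E → E}
    (hf : ContinuousOn f K) (hmap : Set.MapsTo f K K) : ∃ x ∈ K, f x = x := by
  let e := toEuclidean (E := E)
  have h := brouwer_inner (K := e '' K) (f := fun y => e (f (e.symm y)))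
    (hc.linear_image e.toLinearEquiv.toLinearMap) (hK.image e.continuous) (hne.image _)
    (e.continuous.comp_continuousOn (hf.comp e.symm.continuous.continuousOn
      (by rintro _ ⟨x, hx, rfl⟩; simpa using hx)))
    (by rintro _ ⟨x, hx, rfl⟩; exact ⟨f x, hmap hx, by simp⟩)
  obtain ⟨_, ⟨x, hx, rfl⟩, hfx⟩ := h
  exact ⟨x, hx, by simpa using hfx⟩

end Vale.Agent.P371
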